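import Vale.Agent.P216.H269D.Cx
import Mathlib.Topology.MetricSpace.Pseudo.Pi
import Mathlib.Topology.Algebra.Order.Floor
import Mathlib.Algebra.BigOperators.Ring.Finset
import Mathlib.Data.Fintype.Pi

/-!
# Partitions of unity of bounded order from an embedding into `ℝ^m`
-/

open Finset Set Filter Topology

namespace Vale.Agent.P216.H269D

/-- the hat function on the line -/
noncomputable def hat (n : ℤ) (t : ℝ) : ℝ := max 0 (1 - |t - n|)

theorem hat_nonneg (n : ℤ) (t : ℝ) : 0 ≤ hat n t := le_max_left _ _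

theorem hat_cont (n : ℤ) : Continuous (hat n) := by unfold hat; fun_prop

theorem hat_ne {n : ℤ} {t : ℝ} (h : hat n t ≠ 0) : |t - n| < 1 := by
  by_contra hc
  exact h (max_eq_left (by linarith [not_lt.1 hc]))

theorem hat_mem {n : ℤ} {t : ℝ} (h : hat n t ≠ 0) : n = ⌊t⌋ ∨ n = ⌊t⌋ + 1 := by
  have h1 := abs_lt.1 (hat_ne h)
  have h2 := Int.floor_le t
  have h3 := Int.lt_floor_add_one t
  have a1 : (n : ℝ) < (⌊t⌋ : ℝ) + 2 := by linarith
  have a2 : (⌊t⌋ : ℝ) - 1 < n := by linarith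
  have b1 : n < ⌊t⌋ + 2 := by exact_mod_cast a1
  have b2 : ⌊t⌋ - 1 < n := by exact_mod_cast a2
  omega

theorem hat_sum {B : ℤ} {t : ℝ} (ht : |t| ≤ B) : ∑ n ∈ Finset.Icc (-(B + 1)) (B + 1), hat n t = 1 := by
  have h1 := abs_le.1 ht
  have h2 := Int.floor_le t
  have h3 := Int.lt_floor_add_one t
  have hB1 : -(B + 1) ≤ ⌊t⌋ := by
    have h4 : (-(B:ℝ) - 1) < (⌊t⌋ : ℝ) := by linarith
    have h5 : (-B - 1 : ℤ) < ⌊t⌋ := by exact_mod_cast h4
    omega
  have hB2 : ⌊t⌋ ≤ B := by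
    have : (⌊t⌋ : ℝ) ≤ B := by linarith
    exact_mod_cast this
  have hsub : ({⌊t⌋, ⌊t⌋ + 1} : Finset ℤ) ⊆ Finset.Icc (-(B + 1)) (B + 1) := by
    intro n hn
    rw [Finset.mem_insert, Finset.mem_singleton] at hn
    rw [Finset.mem_Icc]
    omega
  rw [← Finset.sum_subset hsub, Finset.sum_pair (by omega)]
  · unfold hat
    push_cast
    rw [abs_of_nonneg (by linarith), abs_of_nonpos (by linarith), max_eq_right (by linarith),
      max_eq_right (by linarith)]
    ring
  · intro n _ hn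
    by_contra h
    rcases hat_mem h with h | h <;> simp [h] at hn

/-- the product hat function -/
noncomputable def hatp {m : ℕ} (z : Fin m → ℤ) (y : Fin m → ℝ) : ℝ := ∏ i, hat (z i) (y i)

theorem hatp_nonneg {m : ℕ} (z : Fin m → ℤ) (y : Fin m → ℝ) : 0 ≤ hatp z y :=
  Finset.prod_nonneg fun i _ => hat_nonneg _ _

theorem hatp_cont {m : ℕ} (z : Fin m → ℤ) : Continuous (hatp z) :=
  continuous_finsetProd _ fun i _ => (hat_cont _).comp (continuous_apply i)

theorem hatp_ne {m : ℕ} {z : Fin m → ℤ} {y : Fin m → ℝ} (h : hatp z y ≠ 0) (i : Fin m) :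
    hat (z i) (y i) ≠ 0 := fun h0 => h (Finset.prod_eq_zero (Finset.mem_univ i) h0)

theorem hatp_sum {m : ℕ} {B : ℤ} {y : Fin m → ℝ} (hy : ∀ i, |y i| ≤ B) :
    ∑ z ∈ Fintype.piFinset (fun _ : Fin m => Finset.Icc (-(B + 1)) (B + 1)), hatp z y = 1 := by
  unfold hatp
  rw [← Finset.prod_univ_sum (fun _ : Fin m => Finset.Icc (-(B + 1)) (B + 1))
    (fun i n => hat n (y i))]
  exact Finset.prod_eq_one fun i _ => hat_sum (hy i)

variable {M : Type*} [MetricSpace M]

/-- Uniform continuity of the inverse of an injection of a compact space. -/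
theorem inv_unif [CompactSpace M] {Y : Type*} [MetricSpace Y] {f : M → Y} (hf : Continuous f)
    (hinj : Function.Injective f) {ε : ℝ} (hε : 0 < ε) :
    ∃ κ : ℝ, 0 < κ ∧ ∀ x y, dist (f x) (f y) < κ → dist x y < ε := by
  by_contra hcon
  push Not at hcon
  have hcl : IsClosed {q : M × M | ε ≤ dist q.1 q.2} :=
    isClosed_le continuous_const (continuous_fst.dist continuous_snd)
  have hne : {q : M × M | ε ≤ dist q.1 q.2}.Nonempty := by
    obtain ⟨x, y, _, h⟩ := hcon 1 one_pos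
    exact ⟨(x, y), h⟩
  obtain ⟨q, hq, hmin⟩ := hcl.isCompact.exists_isMinOn hne
    ((hf.comp continuous_fst).dist (hf.comp continuous_snd)).continuousOn
  have hpos : 0 < dist (f q.1) (f q.2) := by
    rw [dist_pos]
    intro h
    have h1 : dist q.1 q.2 = 0 := by rw [hinj h, dist_self]
    have h2 : ε ≤ dist q.1 q.2 := hq
    linarith
  obtain ⟨x, y, h1, h2⟩ := hcon _ hpos
  have h3 := hmin (a := (x, y)) h2
  have h4 : dist (f q.1) (f q.2) ≤ dist (f x) (f y) := h3
  linarith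

theorem parts_of_emb [CompactSpace M] [Nonempty M] {m : ℕ} {f : M → Fin m → ℝ} (hf : Continuous f)
    (hinj : Function.Injective f) {ε : ℝ} (hε : 0 < ε) :
    ∃ (N : ℕ) (v : Fin N → M) (φ : Fin N → M → ℝ), (∀ j, Continuous (φ j)) ∧
      (∀ j x, 0 ≤ φ j x) ∧ (∀ x, ∑ j, φ j x = 1) ∧ (∀ x, (supp fun j => φ j x).card ≤ 2 ^ m) ∧
      (∀ j x, φ j x ≠ 0 → dist x (v j) < ε) := by
  classical
  obtain ⟨κ, hκ, hu⟩ := inv_unif hf hinj hε
  -- the scale
  set h : ℝ := κ / 3 with hh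
  have hh0 : 0 < h := by positivity
  -- the bound
  obtain ⟨R, hR⟩ : ∃ R : ℝ, ∀ x i, |f x i| ≤ R := by
    obtain ⟨R, hR⟩ := (isCompact_range hf).isBounded.exists_norm_le
    exact ⟨R, fun x i => (norm_le_pi_norm (f x) i).trans (hR _ ⟨x, rfl⟩)⟩
  obtain ⟨B, hB⟩ := exists_nat_ge (R / h)
  have hfB : ∀ x i, |f x i / h| ≤ ((B : ℤ) : ℝ) := fun x i => by
    rw [abs_div, abs_of_pos hh0]
    push_cast
    exact (div_le_div_of_nonneg_right (hR x i) hh0.le).trans hB
  set Z : Finset (Fin m → ℤ) :=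
    Fintype.piFinset (fun _ : Fin m => Finset.Icc (-((B:ℤ) + 1)) ((B:ℤ) + 1)) with hZ
  let e := Z.equivFin
  let g : M → Fin m → ℝ := fun x i => f x i / h
  have hg : Continuous g := continuous_pi fun i => ((continuous_apply i).comp hf).div_const h
  let φ : Fin Z.card → M → ℝ := fun j x => hatp (e.symm j).1 (g x)
  let v : Fin Z.card → M := fun j => if hx : ∃ x, φ j x ≠ 0 then hx.choose else Classical.arbitrary M
  have hclose : ∀ j x y, φ j x ≠ 0 → φ j y ≠ 0 → dist x y < ε := by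
    intro j x y hx hy
    apply hu
    have : ∀ i, dist (f x i) (f y i) ≤ 2 * h := fun i => by
      have h1 := hat_ne (hatp_ne hx i)
      have h2 := hat_ne (hatp_ne hy i)
      have h3 : |f x i / h - f y i / h| < 2 := by
        rw [abs_lt] at h1 h2 ⊢
        constructor <;> linarith [h1.1, h1.2, h2.1, h2.2]
      rw [← sub_div, abs_div, abs_of_pos hh0, div_lt_iff₀ hh0] at h3
      rw [Real.dist_eq]
      exact h3.le
    refine lt_of_le_of_lt ((dist_pi_le_iff (by positivity)).2 this) ?_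
    rw [hh]
    linarith
  refine ⟨Z.card, v, φ, fun j => (hatp_cont _).comp hg, fun j x => hatp_nonneg _ _, fun x => ?_,
    fun x => ?_, fun j x hx => ?_⟩
  · have h1 : ∑ j, φ j x = ∑ z : Z, hatp z.1 (g x) :=
      Equiv.sum_comp e.symm (fun z : Z => hatp z.1 (g x))
    rw [h1, Finset.sum_coe_sort Z (fun z => hatp z (g x)), hZ]
    exact hatp_sum (hfB x)
  · have h1 : (Fintype.piFinset fun i : Fin m => ({⌊g x i⌋, ⌊g x i⌋ + 1} : Finset ℤ)).card =
        2 ^ m := by
      rw [Fintype.card_piFinset]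
      simp
    rw [← h1]
    refine Finset.card_le_card_of_injOn (fun j => (e.symm j).1) (fun j hj => ?_) fun j _ k _ hjk => ?_
    · rw [Finset.mem_coe] at hj
      rw [Finset.mem_coe, Fintype.mem_piFinset]
      intro i
      rw [Finset.mem_insert, Finset.mem_singleton]
      have hj' : φ j x ≠ 0 := (mem_supp (x := fun j => φ j x)).1 hj
      exact hat_mem (hatp_ne hj' i)
    · exact e.symm.injective (Subtype.ext hjk)
  · have hex : ∃ y, φ j y ≠ 0 := ⟨x, hx⟩
    have h1 : v j = hex.choose := dif_pos hex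
    rw [h1]
    exact hclose j x _ hx hex.choose_spec

end Vale.Agent.P216.H269D
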