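import Vale.Agent.P216.H269D.Dom
import Vale.Agent.P216.H269D.Emb
import Mathlib.Geometry.Manifold.WhitneyEmbedding

/-!
# Every compact manifold with unique short segments is dominated by a finite simplicial complex
-/

open Finset Set Filter Topology Manifold
open scoped ContDiff

namespace Vale.Agent.P216.H269D

open LS

section

variable {M : Type*} [MetricSpace M] [CompactSpace M] {ρ : ℝ}

/-- Domination with estimates, by a Vietoris-Rips complex of arbitrarily small mesh. -/
theorem exists_dom_eps [Nonempty M] (hρ : 0 < ρ) (hU : UniqSeg M ρ) {m : ℕ} {f : M → Fin m → ℝ}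
    (hf : Continuous f) (hinj : Function.Injective f) {ε : ℝ} (hε : 0 < ε) :
    ∃ (N : ℕ) (v : Fin N → M) (δ : ℝ) (i : C(M, (rips v δ (2 ^ m)).space))
      (r : C((rips v δ (2 ^ m)).space, M)), 0 < δ ∧ δ ≤ ε ∧
      (∀ x j, (i x).1 j ≠ 0 → dist x (v j) < δ / 2) ∧ (∀ x, dist x (r (i x)) ≤ ε) ∧
      (∀ z : (rips v δ (2 ^ m)).space, ∀ k, z.1 k ≠ 0 → dist (r z) (v k) ≤ ε) ∧
      (ContinuousMap.id M).Homotopic (r.comp i) := by
  set K : ℕ := 2 ^ m with hK
  set ε' : ℝ := min ε (ρ / 2) with hε'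
  have h0 : 0 < ε' := lt_min hε (by linarith)
  set δ : ℝ := ε' / (K + 1) with hδ
  have hK1 : (0:ℝ) < K + 1 := by positivity
  have hδ0 : 0 < δ := div_pos h0 hK1
  have hδK : δ * (K + 1) = ε' := div_mul_cancel₀ _ hK1.ne'
  have hK0 : (0:ℝ) ≤ K := Nat.cast_nonneg _
  obtain ⟨N, v, φ, hc, hφ0, hφ1, hcard, hv⟩ := parts_of_emb hf hinj (half_pos hδ0)
  obtain ⟨i, r, h1, h2, h3, h4⟩ := dom_of_parts hρ hU hδ0
    (by rw [hδK]; exact lt_of_le_of_lt (min_le_right _ _) (by linarith)) (Classical.arbitrary M)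
    v φ hc hφ0 hφ1 hcard hv
  refine ⟨N, v, δ, i, r, hδ0, ?_, fun x j hj => hv j x (by rwa [h1] at hj), fun x => ?_,
    fun z k hk => ?_, h4⟩
  · have : ε' ≤ ε := min_le_left _ _
    nlinarith
  · exact (h2 x).trans (by rw [hδK]; exact min_le_left _ _)
  · refine (h3 z k hk).trans ?_
    have : ε' ≤ ε := min_le_left _ _
    nlinarith

/-- Domination, in the form used by `lin_loops`. -/
theorem exists_dom (hρ : 0 < ρ) (hU : UniqSeg M ρ) {m : ℕ} {f : M → Fin m → ℝ}
    (hf : Continuous f) (hinj : Function.Injective f) :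
    ∃ (N : ℕ) (T : Geometry.SimplicialComplex ℝ (Fin N → ℝ)) (i : C(M, T.space))
      (r : C(T.space, M)), T.faces.Finite ∧ (ContinuousMap.id M).Homotopic (r.comp i) := by
  rcases isEmpty_or_nonempty M with hM | hM
  · have hsp : ∀ z : (⊥ : Geometry.SimplicialComplex ℝ (Fin 0 → ℝ)).space, False := fun z =>
      Geometry.SimplicialComplex.space_bot.subset z.2
    let i : C(M, (⊥ : Geometry.SimplicialComplex ℝ (Fin 0 → ℝ)).space) :=
      ⟨fun x => (hM.false x).elim, continuous_of_const fun x => (hM.false x).elim⟩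
    let r : C((⊥ : Geometry.SimplicialComplex ℝ (Fin 0 → ℝ)).space, M) :=
      ⟨fun z => (hsp z).elim, continuous_of_const fun z => (hsp z).elim⟩
    refine ⟨0, ⊥, i, r, ?_, ?_⟩
    · rw [Geometry.SimplicialComplex.faces_bot]
      exact Set.finite_empty
    · rw [show r.comp i = ContinuousMap.id M from ContinuousMap.ext fun x => (hM.false x).elim]
  · obtain ⟨N, v, δ, i, r, -, -, -, -, -, h⟩ := exists_dom_eps hρ hU hf hinj one_pos
    exact ⟨N, rips v δ (2 ^ m), i, r, cx_finite _ _, h⟩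

end

/-- A compact manifold embeds in some `ℝ^m`. -/
theorem exists_inj (E : Type*) [NormedAddCommGroup E] [NormedSpace ℝ E] [FiniteDimensional ℝ E]
    (M : Type*) [MetricSpace M] [CompactSpace M] [ChartedSpace E M] [IsManifold 𝓘(ℝ, E) ∞ M] :
    ∃ (m : ℕ) (f : M → Fin m → ℝ), Continuous f ∧ Function.Injective f := by
  obtain ⟨m, e, -, h, -⟩ := exists_embedding_euclidean_of_compact (I := 𝓘(ℝ, E)) (M := M)
  refine ⟨m, fun x => (e x).ofLp, ?_, fun x y hxy => h.injective ?_⟩
  · exact (PiLp.continuous_ofLp 2 _).comp h.continuous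
  · ext i
    exact congrFun hxy i

/-- Every compact smooth manifold with unique short segments is dominated by a finite simplicial
complex. -/
theorem exists_dom_manifold (E : Type*) [NormedAddCommGroup E] [NormedSpace ℝ E]
    [FiniteDimensional ℝ E] (M : Type*) [MetricSpace M] [CompactSpace M] [ChartedSpace E M]
    [IsManifold 𝓘(ℝ, E) ∞ M] {ρ : ℝ} (hρ : 0 < ρ) (hU : UniqSeg M ρ) :
    ∃ (N : ℕ) (T : Geometry.SimplicialComplex ℝ (Fin N → ℝ)) (i : C(M, T.space))
      (r : C(T.space, M)), T.faces.Finite ∧ (ContinuousMap.id M).Homotopic (r.comp i) := by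
  obtain ⟨m, f, hf, hinj⟩ := exists_inj E M
  exact exists_dom hρ hU hf hinj

end Vale.Agent.P216.H269D
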