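import Mathlib.Topology.Homotopy.Lifting
import Mathlib.Topology.FiberBundle.Basic
import Mathlib.Topology.MetricSpace.Basic
import Mathlib.Topology.MetricSpace.Pseudo.Basic
import Mathlib.Geometry.Manifold.ChartedSpace
import Mathlib.Analysis.Normed.Module.Convex
import Mathlib.Tactic

/-!
# P216-D, block [H1G] : multiplicative 1-cocycles near the diagonal of a simply connected space

`M` simply connected, compact, locally path connected, `G` any group, `f x y * f y z = f x z` for
`x, y, z` close together.  Then `f x y = lam x * (lam y)⁻¹` for `x, y` close together.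
-/

open Set Topology

namespace Vale.Agent.P216.H269D

section

variable {M : Type*} [PseudoMetricSpace M] {G : Type*} [Group G]

/-- the cocycle condition at scale `ε` -/
def MCoc (f : M → M → G) (ε : ℝ) : Prop :=
  ∀ x y z, dist x y < ε → dist y z < ε → dist x z < ε → f x y * f y z = f x z

variable {f : M → M → G} {ε : ℝ}

theorem MCoc.self (h : MCoc f ε) (hε : 0 < ε) (x : M) : f x x = 1 := by
  have := h x x x (by simpa) (by simpa) (by simpa)
  simpa using this

theorem MCoc.inv (h : MCoc f ε) (hε : 0 < ε) {x y : M} (hxy : dist x y < ε) :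
    f y x = (f x y)⁻¹ := by
  have := h x y x hxy (by rwa [dist_comm]) (by simpa)
  rw [h.self hε] at this
  exact (inv_eq_of_mul_eq_one_right this).symm

attribute [local instance] Classical.propDecidable

/-- The torsor. -/
noncomputable def core [TopologicalSpace G] [DiscreteTopology G] (h : MCoc f ε) (hε : 0 < ε) :
    FiberBundleCore M M G where
  baseSet a := Metric.ball a (ε / 2)
  isOpen_baseSet _ := Metric.isOpen_ball
  indexAt x := x
  mem_baseSet_at x := Metric.mem_ball_self (half_pos hε)
  coordChange i j _ v := f j i * v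
  coordChange_self i _ _ v := by rw [h.self hε, one_mul]
  continuousOn_coordChange i j :=
    ((continuous_of_discreteTopology (f := fun v : G => f j i * v)).comp
      continuous_snd).continuousOn
  coordChange_comp i j k x hx v := by
    have h1 : dist i j < ε := by
      have a1 := Metric.mem_ball.1 hx.1.1
      have a2 := Metric.mem_ball.1 hx.1.2
      have := dist_triangle_left i j x
      linarith
    have h2 : dist j k < ε := by
      have a1 := Metric.mem_ball.1 hx.2
      have a2 := Metric.mem_ball.1 hx.1.2
      have := dist_triangle_left j k x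
      linarith
    have h3 : dist i k < ε := by
      have a1 := Metric.mem_ball.1 hx.2
      have a2 := Metric.mem_ball.1 hx.1.1
      have := dist_triangle_left i k x
      linarith
    rw [← mul_assoc, h k j i (by rwa [dist_comm]) (by rwa [dist_comm]) (by rwa [dist_comm])]

/-- **[H1G]** -/
theorem h1g [CompactSpace M] [SimplyConnectedSpace M] [LocallyPathConnectedSpace M]
    (h : MCoc f ε) (hε : 0 < ε) :
    ∃ lam : M → G, ∃ δ > 0, ∀ x y, dist x y < δ → f x y = lam x * (lam y)⁻¹ := by
  let _ : TopologicalSpace G := ⊥
  have : DiscreteTopology G := ⟨rfl⟩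
  let Z := core h hε
  have hcov : IsCoveringMap Z.proj := FiberBundle.isCoveringMap
  obtain ⟨x₀⟩ : Nonempty M := inferInstance
  obtain ⟨s, ⟨-, hs⟩, -⟩ := hcov.existsUnique_continuousMap_lifts (ContinuousMap.id M) x₀
    (⟨x₀, (1 : G)⟩ : Z.TotalSpace) rfl
  have hp : ∀ x, (s x).proj = x := fun x => congrFun hs x
  let lam : M → G := fun x => (s x).2
  have hloc : ∀ x, ∃ δ > 0, δ ≤ ε / 2 ∧ ∀ y, dist y x < δ → f x y = lam x * (lam y)⁻¹ := by
    intro x
    -- the coordinate in the chart `x`
    have hx : s x ∈ (Z.localTriv x).source := by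
      rw [(Z.localTriv x).mem_source]
      show (s x).proj ∈ Metric.ball x (ε / 2)
      rw [hp]
      exact Metric.mem_ball_self (half_pos hε)
    have hc : ContinuousAt (fun y => ((Z.localTriv x) (s y)).2) x := by
      have h1 : ContinuousAt (Z.localTriv x) (s x) :=
        (Z.localTriv x).toOpenPartialHomeomorph.continuousAt hx
      exact (continuous_snd.continuousAt.comp h1).comp s.continuous.continuousAt
    have hval : ∀ y, ((Z.localTriv x) (s y)).2 = f x y * lam y := fun y => by
      have e0 : ((Z.localTriv x) (s y)).2 = f x (s y).proj * lam y := rfl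
      rw [e0, hp]
    have hev : ∀ᶠ y in 𝓝 x, ((Z.localTriv x) (s y)).2 = ((Z.localTriv x) (s x)).2 :=
      hc.eventually (IsOpen.mem_nhds (isOpen_discrete {((Z.localTriv x) (s x)).2}) rfl)
    obtain ⟨δ, hδ, hb⟩ := Metric.eventually_nhds_iff.1 hev
    refine ⟨min δ (ε / 2), lt_min hδ (half_pos hε), min_le_right _ _, fun y hy => ?_⟩
    have h1 := hb (hy.trans_le (min_le_left _ _))
    rw [hval, hval, h.self hε, one_mul] at h1
    rw [← h1, mul_inv_cancel_right]
  choose δ hδ hδε hf using hloc
  obtain ⟨r, hr, hL⟩ := lebesgue_number_lemma_of_metric (isCompact_univ (X := M))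
    (c := fun x : M => Metric.ball x (δ x)) (fun x => Metric.isOpen_ball)
    (fun x _ => mem_iUnion.2 ⟨x, Metric.mem_ball_self (hδ x)⟩)
  refine ⟨lam, r, hr, fun y z hyz => ?_⟩
  obtain ⟨x, hx⟩ := hL y (mem_univ _)
  have hy : dist y x < δ x := hx (Metric.mem_ball_self hr)
  have hz : dist z x < δ x := hx (by rw [Metric.mem_ball, dist_comm]; exact hyz)
  have hε2 : ε / 2 < ε := half_lt_self hε
  have e1 := hf x y hy
  have e2 := hf x z hz
  have d1 : dist x y < ε := by rw [dist_comm]; exact (hy.trans_le (hδε x)).trans hε2
  have d2 : dist x z < ε := by rw [dist_comm]; exact (hz.trans_le (hδε x)).trans hε2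
  have d3 : dist y z < ε := by
    have := dist_triangle_right y z x
    have := hδε x
    linarith
  have e3 := h y x z (by rwa [dist_comm]) d2 d3
  rw [← e3, h.inv hε d1, e1, e2]
  group

end

/-- **[H1G] for manifolds.** -/
theorem h1g_mfd (E : Type*) [NormedAddCommGroup E] [NormedSpace ℝ E] {M : Type*}
    [PseudoMetricSpace M] [ChartedSpace E M] [CompactSpace M] [SimplyConnectedSpace M]
    {G : Type*} [Group G] {f : M → M → G} {ε : ℝ} (h : MCoc f ε) (hε : 0 < ε) :
    ∃ lam : M → G, ∃ δ > 0, ∀ x y, dist x y < δ → f x y = lam x * (lam y)⁻¹ := by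
  have : LocallyPathConnectedSpace M := ChartedSpace.locallyPathConnectedSpace E M
  exact h1g h hε

end Vale.Agent.P216.H269D
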