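import Mathlib.Analysis.Convex.SimplicialComplex.Basic
import Mathlib.Analysis.Convex.Combination
import Mathlib.LinearAlgebra.AffineSpace.Independent
import Mathlib.LinearAlgebra.StdBasis
import Mathlib.Tactic

/-!
# Abstract finite simplicial complexes on the standard basis

`cx P` is the subcomplex of the standard simplex on `ι` whose simplices are the nonempty sets of
indices with the (downward closed) property `P`.
-/

open Finset Set

namespace Vale.Agent.P216.H269D

variable {ι : Type*} [Fintype ι] [DecidableEq ι]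

/-- the vertices of the standard simplex -/
def ev (j : ι) : ι → ℝ := Pi.single j 1

theorem ev_apply (j k : ι) : ev j k = if k = j then 1 else 0 := by
  simp [ev, Pi.single_apply]

theorem ev_inj : Function.Injective (ev : ι → ι → ℝ) := by
  intro j k h
  by_contra hne
  have := congrFun h j
  rw [ev_apply, ev_apply, if_pos rfl, if_neg hne] at this
  exact one_ne_zero this

theorem sum_ev (x : ι → ℝ) {u : Finset ι} (hx : ∀ j, j ∉ u → x j = 0) :
    ∑ j ∈ u, x j • ev j = x := by
  funext k
  rw [Finset.sum_apply]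
  by_cases hk : k ∈ u
  · rw [Finset.sum_eq_single k]
    · simp [ev_apply]
    · intro b _ hb
      simp [ev_apply, Ne.symm hb]
    · intro h; exact absurd hk h
  · rw [hx k hk]
    apply Finset.sum_eq_zero
    intro j hj
    have : k ≠ j := fun h => hk (h ▸ hj)
    simp [ev_apply, this]

theorem mem_hull {u : Finset ι} {x : ι → ℝ} :
    x ∈ convexHull ℝ ((u.image ev : Finset (ι → ℝ)) : Set (ι → ℝ)) ↔
      (∀ j, 0 ≤ x j) ∧ ∑ j, x j = 1 ∧ ∀ j, j ∉ u → x j = 0 := by
  constructor
  · intro h
    have hc : Convex ℝ {x : ι → ℝ | (∀ j, 0 ≤ x j) ∧ ∑ j, x j = 1 ∧ ∀ j, j ∉ u → x j = 0} := by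
      intro x hx y hy a b ha hb hab
      refine ⟨fun j => ?_, ?_, fun j hj => ?_⟩
      · have := mul_nonneg ha (hx.1 j)
        have := mul_nonneg hb (hy.1 j)
        simp only [Pi.add_apply, Pi.smul_apply, smul_eq_mul]
        linarith
      · simp only [Pi.add_apply, Pi.smul_apply, smul_eq_mul, Finset.sum_add_distrib,
          ← Finset.mul_sum, hx.2.1, hy.2.1]
        linarith
      · simp only [Pi.add_apply, Pi.smul_apply, smul_eq_mul, hx.2.2 j hj, hy.2.2 j hj]
        ring
    refine convexHull_min ?_ hc h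
    intro y hy
    rw [Finset.mem_coe, Finset.mem_image] at hy
    obtain ⟨j, hj, rfl⟩ := hy
    refine ⟨fun k => ?_, ?_, fun k hk => ?_⟩
    · rw [ev_apply]; split_ifs <;> norm_num
    · simp [ev_apply]
    · rw [ev_apply, if_neg]
      rintro rfl
      exact hk hj
  · rintro ⟨h0, h1, h2⟩
    rw [← sum_ev x h2]
    refine (convex_convexHull ℝ _).sum_mem (fun j _ => h0 j) ?_ fun j hj => ?_
    · rw [← h1]
      exact Finset.sum_subset (Finset.subset_univ u) fun j _ hj => h2 j hj
    · apply subset_convexHull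
      rw [Finset.mem_coe, Finset.mem_image]
      exact ⟨j, hj, rfl⟩

theorem indep_ev : AffineIndependent ℝ (ev : ι → ι → ℝ) := by
  have h : LinearIndependent ℝ (ev : ι → ι → ℝ) := by
    have := (Pi.basisFun ℝ ι).linearIndependent
    convert this using 1
    funext j
    rw [Pi.basisFun_apply]
    rfl
  exact h.affineIndependent

/-- The complex of the simplices with property `P`. -/
def cx (P : Finset ι → Prop) (hP : ∀ u w, P u → w ⊆ u → P w) :
    Geometry.SimplicialComplex ℝ (ι → ℝ) where
  faces := {s | s.Nonempty ∧ ∃ u : Finset ι, s = u.image ev ∧ P u}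
  isRelLowerSet_faces := by
    rintro s ⟨hs, u, rfl, hu⟩
    refine ⟨hs, fun b hb hbn => ⟨hbn, u.filter (fun j => ev j ∈ b), ?_, hP u _ hu
      (Finset.filter_subset _ _)⟩⟩
    ext y
    rw [Finset.mem_image]
    constructor
    · intro hy
      have := hb hy
      rw [Finset.mem_image] at this
      obtain ⟨j, hj, rfl⟩ := this
      exact ⟨j, Finset.mem_filter.2 ⟨hj, hy⟩, rfl⟩
    · rintro ⟨j, hj, rfl⟩
      exact (Finset.mem_filter.1 hj).2
  indep := by
    rintro s ⟨hs, u, rfl, hu⟩
    have h1 : AffineIndependent ℝ ((↑) : Set.range (ev : ι → ι → ℝ) → ι → ℝ) :=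
      indep_ev.range
    refine h1.mono ?_
    intro y hy
    rw [Finset.mem_coe, Finset.mem_image] at hy
    obtain ⟨j, _, rfl⟩ := hy
    exact ⟨j, rfl⟩
  inter_subset_convexHull := by
    rintro s t ⟨hs, u, rfl, hu⟩ ⟨ht, w, rfl, hw⟩ x ⟨hx1, hx2⟩
    rw [mem_hull] at hx1 hx2
    have : x ∈ convexHull ℝ (((u ∩ w).image ev : Finset (ι → ℝ)) : Set (ι → ℝ)) := by
      rw [mem_hull]
      refine ⟨hx1.1, hx1.2.1, fun j hj => ?_⟩
      by_cases h : j ∈ u
      · exact hx2.2.2 j fun h' => hj (Finset.mem_inter.2 ⟨h, h'⟩)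
      · exact hx1.2.2 j h
    rwa [Finset.image_inter _ _ ev_inj, Finset.coe_inter] at this

theorem cx_finite (P : Finset ι → Prop) (hP) : (cx P hP).faces.Finite := by
  refine ((Set.finite_univ (α := Finset ι)).image (fun u => u.image ev)).subset ?_
  rintro s ⟨_, u, rfl, _⟩
  exact ⟨u, trivial, rfl⟩

/-- The support of a point. -/
noncomputable def supp (x : ι → ℝ) : Finset ι := Finset.univ.filter fun j => x j ≠ 0

theorem mem_supp {x : ι → ℝ} {j : ι} : j ∈ supp x ↔ x j ≠ 0 := by simp [supp]

theorem mem_space {P : Finset ι → Prop} {hP} {x : ι → ℝ} :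
    x ∈ (cx P hP).space ↔ (∀ j, 0 ≤ x j) ∧ ∑ j, x j = 1 ∧ P (supp x) := by
  rw [Geometry.SimplicialComplex.mem_space_iff]
  constructor
  · rintro ⟨s, ⟨_, u, rfl, hu⟩, hx⟩
    rw [mem_hull] at hx
    refine ⟨hx.1, hx.2.1, hP u _ hu fun j hj => ?_⟩
    by_contra h
    exact mem_supp.1 hj (hx.2.2 j h)
  · rintro ⟨h0, h1, h2⟩
    have hne : (supp x).Nonempty := by
      by_contra h
      rw [Finset.not_nonempty_iff_eq_empty] at h
      have h3 : ∀ j, x j = 0 := fun j => by
        by_contra hj
        have := mem_supp.2 hj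
        rw [h] at this
        exact absurd this (Finset.notMem_empty j)
      simp [h3] at h1
    refine ⟨(supp x).image ev, ⟨hne.image _, supp x, rfl, h2⟩, mem_hull.2 ⟨h0, h1, fun j hj => ?_⟩⟩
    by_contra h
    exact hj (mem_supp.2 h)

end Vale.Agent.P216.H269D
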