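import Vale.Agent.P216.H269D.Join
import Mathlib.Topology.Homotopy.Basic

/-!
# Domination by a finite simplicial complex
-/

open Finset Set Filter Topology

namespace Vale.Agent.P216.H269D

open LS

variable {M : Type*} [MetricSpace M] {N : ℕ}

/-- extension of a finite family of points by `p` -/
noncomputable def vv (p : M) (v : Fin N → M) (j : ℕ) : M := if h : j < N then v ⟨j, h⟩ else p

/-- extension of a finite family of weights by `0` -/
noncomputable def XX (z : Fin N → ℝ) (j : ℕ) : ℝ := if h : j < N then z ⟨j, h⟩ else 0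

theorem vv_of (p : M) (v : Fin N → M) {j : ℕ} (h : j < N) : vv p v j = v ⟨j, h⟩ := dif_pos h

theorem XX_of (z : Fin N → ℝ) {j : ℕ} (h : j < N) : XX z j = z ⟨j, h⟩ := dif_pos h

theorem XX_nonneg {z : Fin N → ℝ} (h : ∀ j, 0 ≤ z j) (j : ℕ) : 0 ≤ XX z j := by
  unfold XX
  split_ifs
  · exact h _
  · exact le_rfl

theorem XX_sum (z : Fin N → ℝ) : ∑ i ∈ range N, XX z i = ∑ j, z j := by
  rw [← Fin.sum_univ_eq_sum_range]
  exact Finset.sum_congr rfl fun j _ => by rw [XX_of z j.2]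

theorem XX_cnt (z : Fin N → ℝ) : cnt (XX z) N ≤ (supp z).card := by
  have h : ((range N).filter fun i => XX z i ≠ 0) ⊆ (supp z).image (fun j : Fin N => (j : ℕ)) := by
    intro i hi
    rw [Finset.mem_filter, Finset.mem_range] at hi
    rw [Finset.mem_image]
    refine ⟨⟨i, hi.1⟩, mem_supp.2 ?_, rfl⟩
    rw [← XX_of z hi.1]
    exact hi.2
  exact (Finset.card_le_card h).trans Finset.card_image_le

theorem XX_cont (j : ℕ) : Continuous fun z : Fin N → ℝ => XX z j := by
  unfold XX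
  split_ifs
  · exact continuous_apply _
  · exact continuous_const

/-- the property of the simplices -/
def PP (v : Fin N → M) (δ : ℝ) (K : ℕ) (u : Finset (Fin N)) : Prop :=
  u.card ≤ K ∧ ∀ j ∈ u, ∀ k ∈ u, dist (v j) (v k) < δ

theorem PP_mono (v : Fin N → M) (δ : ℝ) (K : ℕ) (u w : Finset (Fin N)) (hu : PP v δ K u)
    (h : w ⊆ u) : PP v δ K w :=
  ⟨(Finset.card_le_card h).trans hu.1, fun j hj k hk => hu.2 j (h hj) k (h hk)⟩

/-- The Vietoris-Rips complex (of bounded dimension) of the net `v`. -/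
def rips (v : Fin N → M) (δ : ℝ) (K : ℕ) : Geometry.SimplicialComplex ℝ (Fin N → ℝ) :=
  cx (PP v δ K) (PP_mono v δ K)

variable {v : Fin N → M} {δ ρ : ℝ} {K : ℕ}

theorem mem_rips {z : Fin N → ℝ} : z ∈ (rips v δ K).space ↔
    (∀ j, 0 ≤ z j) ∧ ∑ j, z j = 1 ∧ (supp z).card ≤ K ∧
      ∀ j k, z j ≠ 0 → z k ≠ 0 → dist (v j) (v k) < δ := by
  rw [rips, mem_space]
  simp only [PP, mem_supp]
  constructor
  · rintro ⟨h0, h1, h2, h3⟩
    exact ⟨h0, h1, h2, fun j k hj hk => h3 j hj k hk⟩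
  · rintro ⟨h0, h1, h2, h3⟩
    exact ⟨h0, h1, h2, fun j hj k hk => h3 j k hj hk⟩

/-- The realisation map. -/
noncomputable def rl (p : M) (v : Fin N → M) (z : Fin N → ℝ) : M := jn p (vv p v) (XX z) N

theorem rl_dist (hU : UniqSeg M ρ) (hδ : 0 < δ) (hK : δ * K < ρ) (p : M) {z : Fin N → ℝ}
    (hz : z ∈ (rips v δ K).space) {k : Fin N} (hk : z k ≠ 0) :
    dist (rl p v z) (v k) ≤ δ * K := by
  obtain ⟨h0, h1, h2, h3⟩ := mem_rips.1 hz
  have hc : (cnt (XX z) N : ℝ) ≤ K := by exact_mod_cast (XX_cnt z).trans h2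
  have h := jn_dist (p := p) (v := vv p v) hU (XX_nonneg h0) hδ (N := N)
    (lt_of_le_of_lt (mul_le_mul_of_nonneg_left hc hδ.le) hK)
    (fun i hi j hj hi' hj' => by
      rw [vv_of p v hi, vv_of p v hj]
      rw [XX_of z hi] at hi'
      rw [XX_of z hj] at hj'
      exact h3 _ _ hi' hj') N le_rfl (by rw [XX_sum, h1]; exact one_pos) k k.2
      (by rw [XX_of z k.2]; exact hk)
  rw [vv_of p v k.2] at h
  exact h.trans (mul_le_mul_of_nonneg_left hc hδ.le)

theorem rl_cont [CompactSpace M] (hρ : 0 < ρ) (hU : UniqSeg M ρ) (hδ : 0 < δ) (hK : δ * K < ρ)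
    (p : M) : Continuous fun z : (rips v δ K).space => rl p v z.1 := by
  rw [continuous_iff_continuousAt]
  intro a
  refine jn_cont (S := (rips v δ K).space) (X := fun z => XX z.1) hρ hU
    (fun z => XX_nonneg (mem_rips.1 z.2).1) (fun j => (XX_cont j).comp continuous_subtype_val) hδ
    (N := N) (fun z => ?_) (fun z i hi j hj hi' hj' => ?_) N le_rfl a ?_
  · have hc : (cnt (XX z.1) N : ℝ) ≤ K := by
      exact_mod_cast (XX_cnt z.1).trans (mem_rips.1 z.2).2.2.1
    exact lt_of_le_of_lt (mul_le_mul_of_nonneg_left hc hδ.le) hK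
  · rw [vv_of p v hi, vv_of p v hj]
    rw [XX_of z.1 hi] at hi'
    rw [XX_of z.1 hj] at hj'
    exact (mem_rips.1 z.2).2.2.2 _ _ hi' hj'
  · rw [XX_sum, (mem_rips.1 a.2).2.1]
    exact one_pos

/-- The domination given by a partition of unity of bounded order. -/
theorem dom_of_parts [CompactSpace M] (hρ : 0 < ρ) (hU : UniqSeg M ρ) (hδ : 0 < δ)
    (hK : δ * (K + 1) < ρ) (p : M) (v : Fin N → M) (φ : Fin N → M → ℝ)
    (hc : ∀ j, Continuous (φ j)) (h0 : ∀ j x, 0 ≤ φ j x) (h1 : ∀ x, ∑ j, φ j x = 1)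
    (hcard : ∀ x, (supp fun j => φ j x).card ≤ K)
    (hv : ∀ j x, φ j x ≠ 0 → dist x (v j) < δ / 2) :
    ∃ (i : C(M, (rips v δ K).space)) (r : C((rips v δ K).space, M)),
      (∀ x j, (i x).1 j = φ j x) ∧ (∀ x, dist x (r (i x)) ≤ δ * (K + 1)) ∧
      (∀ z : (rips v δ K).space, ∀ k, z.1 k ≠ 0 → dist (r z) (v k) ≤ δ * K) ∧
      (ContinuousMap.id M).Homotopic (r.comp i) := by
  have hK' : δ * K < ρ := by nlinarith
  have hmem : ∀ x, (fun j => φ j x) ∈ (rips v δ K).space := fun x => by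
    rw [mem_rips]
    refine ⟨fun j => h0 j x, h1 x, hcard x, fun j k hj hk => ?_⟩
    have a1 := hv j x hj
    have a2 := hv k x hk
    have a3 := dist_triangle (v j) x (v k)
    rw [dist_comm (v j) x] at a3
    linarith
  let i : C(M, (rips v δ K).space) :=
    ⟨fun x => ⟨fun j => φ j x, hmem x⟩, (continuous_pi fun j => hc j).subtype_mk _⟩
  let r : C((rips v δ K).space, M) := ⟨fun z => rl p v z.1, rl_cont hρ hU hδ hK' p⟩
  have hd : ∀ z : (rips v δ K).space, ∀ k, z.1 k ≠ 0 → dist (r z) (v k) ≤ δ * K :=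
    fun z k hk => rl_dist hU hδ hK' p z.2 hk
  have hx : ∀ x, dist x (r (i x)) ≤ δ * (K + 1) := fun x => by
    have : ∃ k, φ k x ≠ 0 := by
      by_contra h
      push Not at h
      have := h1 x
      simp [h] at this
    obtain ⟨k, hk⟩ := this
    have a1 := hv k x hk
    have a2 := hd (i x) k hk
    have a3 := dist_triangle x (v k) (r (i x))
    rw [dist_comm (v k)] at a3
    linarith
  refine ⟨i, r, fun x j => rfl, hx, hd, ⟨?_⟩⟩
  refine
    { toFun := fun q => seg q.2 (r (i q.2)) (q.1 : ℝ)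
      continuous_toFun := ?_
      map_zero_left := fun x => by simp
      map_one_left := fun x => by simp }
  refine (continuousOn_seg hU).comp_continuous
    (f := fun q : unitInterval × M => (q.2, r (i q.2), (q.1 : ℝ))) (by fun_prop) fun q => ?_
  exact ⟨lt_of_le_of_lt (hx q.2) hK, q.1.2⟩

end Vale.Agent.P216.H269D
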