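import Vale.Agent.P216.LS.Seg
import Vale.Agent.P216.H269D.Cx

/-!
# The iterated geodesic join
-/

open Finset Set Filter Topology

namespace Vale.Agent.P216.H269D

open LS

variable {M : Type*} [MetricSpace M]

/-- The iterated join of the points `v 0, v 1, …` with weights `X 0, X 1, …`. -/
noncomputable def jn (p : M) (v : ℕ → M) (X : ℕ → ℝ) : ℕ → M
  | 0 => p
  | j + 1 => seg (jn p v X j) (v j) (X j / ∑ i ∈ range (j + 1), X i)

variable {p : M} {v : ℕ → M} {X : ℕ → ℝ} {ρ δ : ℝ}

theorem jn_succ (j : ℕ) :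
    jn p v X (j + 1) = seg (jn p v X j) (v j) (X j / ∑ i ∈ range (j + 1), X i) := rfl

theorem jn_succ_zero {j : ℕ} (h : X j = 0) : jn p v X (j + 1) = jn p v X j := by
  rw [jn_succ, h, zero_div, seg_zero]

theorem ratio_mem (hX : ∀ j, 0 ≤ X j) (j : ℕ) :
    X j / ∑ i ∈ range (j + 1), X i ∈ Icc (0:ℝ) 1 := by
  have h0 : 0 ≤ ∑ i ∈ range j, X i := Finset.sum_nonneg fun i _ => hX i
  rw [Finset.sum_range_succ]
  refine ⟨div_nonneg (hX j) (add_nonneg h0 (hX j)), ?_⟩
  exact div_le_one_of_le₀ (by linarith) (add_nonneg h0 (hX j))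

theorem jn_succ_one (hX : ∀ j, 0 ≤ X j) {j : ℕ} (h : ∑ i ∈ range j, X i = 0) (hj : 0 < X j) :
    jn p v X (j + 1) = v j := by
  rw [jn_succ, Finset.sum_range_succ, h, zero_add, div_self hj.ne', seg_one]

/-- the number of vertices used before `j` -/
noncomputable def cnt (X : ℕ → ℝ) (j : ℕ) : ℕ := ((range j).filter fun i => X i ≠ 0).card

theorem cnt_succ {j : ℕ} (h : X j ≠ 0) : cnt X (j + 1) = cnt X j + 1 := by
  rw [cnt, cnt, Finset.range_add_one, Finset.filter_insert, if_pos h,
    Finset.card_insert_of_notMem (by simp)]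

theorem cnt_succ_zero {j : ℕ} (h : X j = 0) : cnt X (j + 1) = cnt X j := by
  rw [cnt, cnt, Finset.range_add_one, Finset.filter_insert, if_neg (by simpa using h)]

theorem cnt_mono {i j : ℕ} (h : i ≤ j) : cnt X i ≤ cnt X j :=
  Finset.card_le_card (Finset.filter_subset_filter _ (Finset.range_mono h))

theorem jn_dist (hU : UniqSeg M ρ) (hX : ∀ j, 0 ≤ X j) (hδ : 0 < δ) {N : ℕ}
    (hK : δ * cnt X N < ρ) (hv : ∀ i < N, ∀ j < N, X i ≠ 0 → X j ≠ 0 → dist (v i) (v j) < δ) :
    ∀ j ≤ N, 0 < ∑ i ∈ range j, X i → ∀ k < N, X k ≠ 0 →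
      dist (jn p v X j) (v k) ≤ δ * cnt X j := by
  intro j
  induction j with
  | zero =>
    intro _ h
    simp at h
  | succ j ih =>
    intro hj hs k hk hXk
    by_cases h0 : X j = 0
    · rw [jn_succ_zero h0, cnt_succ_zero h0]
      refine ih (by omega) ?_ k hk hXk
      rwa [Finset.sum_range_succ, h0, add_zero] at hs
    · have hpos : 0 < X j := lt_of_le_of_ne (hX j) (Ne.symm h0)
      rw [cnt_succ h0]
      push_cast
      have hjk := (hv j (by omega) k hk h0 hXk).le
      have hc0 : (0:ℝ) ≤ cnt X j := Nat.cast_nonneg _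
      rcases (Finset.sum_nonneg fun i (_ : i ∈ range j) => hX i).eq_or_lt with hs0 | hs0
      · rw [jn_succ_one hX hs0.symm hpos]
        nlinarith
      · have h1 := ih (by omega) hs0 j (by omega) h0
        have hlt : dist (jn p v X j) (v j) < ρ := by
          refine h1.trans_lt (lt_of_le_of_lt ?_ hK)
          have : (cnt X j : ℝ) ≤ cnt X N := by exact_mod_cast cnt_mono (by omega)
          nlinarith
        have ht := ratio_mem hX j
        have h2 := dist_seg_right hU hlt ht
        rw [← jn_succ] at h2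
        have h3 : dist (jn p v X (j + 1)) (v j) ≤ δ * cnt X j := by
          rw [h2]
          refine le_trans ?_ h1
          have := dist_nonneg (x := jn p v X j) (y := v j)
          nlinarith [ht.1]
        have := dist_triangle (jn p v X (j + 1)) (v j) (v k)
        nlinarith

/-- Continuity of the iterated join where the partial sum is positive. -/
theorem jn_cont [CompactSpace M] {S : Type*} [TopologicalSpace S] (hρ : 0 < ρ) (hU : UniqSeg M ρ)
    {X : S → ℕ → ℝ}
    (hX : ∀ a j, 0 ≤ X a j) (hXc : ∀ j, Continuous fun a => X a j) (hδ : 0 < δ) {N : ℕ}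
    (hK : ∀ a, δ * cnt (X a) N < ρ)
    (hv : ∀ a, ∀ i < N, ∀ j < N, X a i ≠ 0 → X a j ≠ 0 → dist (v i) (v j) < δ) :
    ∀ j ≤ N, ∀ a, 0 < ∑ i ∈ range j, X a i → ContinuousAt (fun b => jn p v (X b) j) a := by
  have hsum : ∀ j, Continuous fun a => ∑ i ∈ range j, X a i := fun j =>
    continuous_finsetSum _ fun i _ => hXc i
  intro j
  induction j with
  | zero =>
    intro _ a h
    simp at h
  | succ j ih =>
    intro hj a hs
    have hsn : (∑ i ∈ range (j + 1), X a i) ≠ 0 := hs.ne'
    have htc : ContinuousAt (fun b => X b j / ∑ i ∈ range (j + 1), X b i) a :=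
      (hXc j).continuousAt.div (hsum (j + 1)).continuousAt hsn
    have ht := fun b => ratio_mem (hX b) j
    -- distances near `a`
    have hlt : ∀ b, X b j ≠ 0 → 0 < ∑ i ∈ range j, X b i →
        dist (jn p v (X b) j) (v j) < ρ := fun b h0 h1 => by
      refine (jn_dist hU (hX b) hδ (hK b) (hv b) j (by omega) h1 j (by omega) h0).trans_lt
        (lt_of_le_of_lt ?_ (hK b))
      have : (cnt (X b) j : ℝ) ≤ cnt (X b) N := by exact_mod_cast cnt_mono (by omega)
      nlinarith
    have hleft : ∀ b, 0 < ∑ i ∈ range j, X b i →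
        dist (jn p v (X b) (j + 1)) (jn p v (X b) j) ≤
          (X b j / ∑ i ∈ range (j + 1), X b i) * ρ := fun b h1 => by
      by_cases h0 : X b j = 0
      · rw [jn_succ_zero h0, dist_self, h0, zero_div, zero_mul]
      · have h2 := dist_left_seg hU (hlt b h0 h1) (ht b)
        rw [← jn_succ] at h2
        rw [dist_comm, h2]
        exact mul_le_mul_of_nonneg_left (hlt b h0 h1).le (ht b).1
    have hright : ∀ b, X b j ≠ 0 → dist (jn p v (X b) (j + 1)) (v j) ≤
          (1 - X b j / ∑ i ∈ range (j + 1), X b i) * ρ := fun b h0 => by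
      rcases (Finset.sum_nonneg fun i (_ : i ∈ range j) => hX b i).eq_or_lt with hs0 | hs0
      · rw [jn_succ_one (hX b) hs0.symm (lt_of_le_of_ne (hX b j) (Ne.symm h0)), dist_self]
        exact mul_nonneg (by linarith [(ht b).2]) hρ.le
      · have h2 := dist_seg_right hU (hlt b h0 hs0) (ht b)
        rw [← jn_succ] at h2
        rw [h2]
        exact mul_le_mul_of_nonneg_left (hlt b h0 hs0).le (by linarith [(ht b).2])
    by_cases h0 : X a j = 0
    · -- the weight vanishes at `a`
      have hs' : 0 < ∑ i ∈ range j, X a i := by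
        rwa [Finset.sum_range_succ, h0, add_zero] at hs
      have hev : ∀ᶠ b in 𝓝 a, 0 < ∑ i ∈ range j, X b i :=
        (hsum j).continuousAt.eventually (lt_mem_nhds hs')
      have hc := ih (by omega) a hs'
      have h1 : Tendsto (fun b => dist (jn p v (X b) (j + 1)) (jn p v (X b) j)) (𝓝 a) (𝓝 0) := by
        refine squeeze_zero' (Eventually.of_forall fun _ => dist_nonneg)
          (hev.mono fun b hb => hleft b hb) ?_
        have := (htc.tendsto).mul_const ρ
        rwa [h0, zero_div, zero_mul] at this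
      rw [ContinuousAt, jn_succ_zero h0, tendsto_iff_dist_tendsto_zero]
      have h2 := tendsto_iff_dist_tendsto_zero.1 hc.tendsto
      have h3 := h1.add h2
      rw [add_zero] at h3
      exact squeeze_zero (fun _ => dist_nonneg) (fun b => dist_triangle _ _ _) h3
    · have hpos : 0 < X a j := lt_of_le_of_ne (hX a j) (Ne.symm h0)
      have hev : ∀ᶠ b in 𝓝 a, 0 < X b j := (hXc j).continuousAt.eventually (lt_mem_nhds hpos)
      rcases (Finset.sum_nonneg fun i (_ : i ∈ range j) => hX a i).eq_or_lt with hs0 | hs0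
      · rw [ContinuousAt, jn_succ_one (hX a) hs0.symm hpos, tendsto_iff_dist_tendsto_zero]
        refine squeeze_zero' (Eventually.of_forall fun _ => dist_nonneg)
          (hev.mono fun b hb => hright b hb.ne') ?_
        have h5 : X a j / ∑ i ∈ range (j + 1), X a i = 1 := by
          rw [Finset.sum_range_succ, ← hs0, zero_add, div_self h0]
        have h6 := htc.tendsto
        rw [h5] at h6
        have := ((tendsto_const_nhds (x := (1:ℝ))).sub h6).mul_const ρ
        rwa [sub_self, zero_mul] at this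
      · have hev' : ∀ᶠ b in 𝓝 a, 0 < ∑ i ∈ range j, X b i :=
          (hsum j).continuousAt.eventually (lt_mem_nhds hs0)
        have hc := ih (by omega) a hs0
        have h3 : Tendsto (fun b => (jn p v (X b) j, v j, X b j / ∑ i ∈ range (j + 1), X b i))
            (𝓝 a) (𝓝[{q : M × M × ℝ | dist q.1 q.2.1 < ρ ∧ q.2.2 ∈ Icc (0:ℝ) 1}]
              (jn p v (X a) j, v j, X a j / ∑ i ∈ range (j + 1), X a i)) := by
          rw [tendsto_nhdsWithin_iff]
          refine ⟨hc.tendsto.prodMk_nhds (tendsto_const_nhds.prodMk_nhds htc.tendsto), ?_⟩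
          filter_upwards [hev, hev'] with b h1 h2
          exact ⟨hlt b h1.ne' h2, ht b⟩
        exact (continuousOn_seg hU _ ⟨hlt a h0 hs0, ht a⟩).tendsto.comp h3

end Vale.Agent.P216.H269D
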