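import Vale.Agent.P216.H269D.H1G
import Vale.Agent.P216.D246.Defs
import Mathlib.Topology.Connected.LocPathConnected

/-!
# Locally euclidean spaces are locally path connected
-/

open Set Topology

namespace Vale.Agent.P216.H269D

open Vale.Agent.P216.D246

/-- Locally euclidean spaces are locally path connected. -/
theorem locallyPath_of_locEuc {M : Type} [TopologicalSpace M] {n : ℕ} (loc : LocEuc M n) :
    LocallyPathConnectedSpace M := by
  refine ⟨fun x => ⟨fun U => ⟨fun hU => ?_, fun ⟨i, hi, hiU⟩ => Filter.mem_of_superset hi.1 hiU⟩⟩⟩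
  obtain ⟨c, hx, hx0⟩ := loc x
  have hc : ContinuousAt c.ψ (0 : Fin n → ℝ) :=
    (c.ψ_cont).continuousAt (by
      have : Metric.ball (0 : Fin n → ℝ) 2 ⊆ {y | ‖y‖ ≤ 2} := fun y hy => by
        rw [mem_ball_zero_iff] at hy
        exact hy.le
      exact Filter.mem_of_superset (Metric.ball_mem_nhds _ two_pos) this)
  have h0 : c.ψ 0 = x := by rw [← hx0]; exact c.ψφ x hx
  obtain ⟨η, hη, hb⟩ := Metric.mem_nhds_iff.1 (hc (h0.symm ▸ hU))
  set r : ℝ := min η 1 with hr
  have hr0 : 0 < r := lt_min hη one_pos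
  have hr2 : r < 2 := lt_of_le_of_lt (min_le_right _ _) one_lt_two
  refine ⟨c.ψ '' Metric.ball 0 r, ⟨?_, ?_⟩, ?_⟩
  · have hV : c.ψ '' Metric.ball 0 r = {y | y ∈ c.D ∧ ‖c.φ y‖ < 2} ∩ c.φ ⁻¹' Metric.ball 0 r := by
      ext y
      constructor
      · rintro ⟨v, hv, rfl⟩
        rw [mem_ball_zero_iff] at hv
        have hv2 : ‖v‖ ≤ 2 := (hv.trans hr2).le
        refine ⟨⟨c.ψ_mem v hv2, ?_⟩, ?_⟩
        · rw [c.φψ v hv2]
          exact hv.trans hr2
        · rw [mem_preimage, c.φψ v hv2, mem_ball_zero_iff]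
          exact hv
      · rintro ⟨⟨hy, -⟩, hy2⟩
        exact ⟨c.φ y, hy2, c.ψφ y hy⟩
    have ho : IsOpen (c.ψ '' Metric.ball 0 r) := by
      rw [hV]
      exact (c.φ_cont.mono fun y hy => hy.1).isOpen_inter_preimage c.open_int Metric.isOpen_ball
    refine ho.mem_nhds ⟨0, Metric.mem_ball_self hr0, h0⟩
  · refine ((convex_ball (0 : Fin n → ℝ) r).isPathConnected ⟨0, Metric.mem_ball_self hr0⟩).image'
      (c.ψ_cont.mono fun v hv => ?_)
    rw [mem_ball_zero_iff] at hv
    exact (hv.trans hr2).le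
  · rintro _ ⟨v, hv, rfl⟩
    exact hb (Metric.ball_subset_ball (min_le_left _ _) hv)

/-- **[H1G] for compact simply connected locally euclidean spaces.** -/
theorem h1g_locEuc {M : Type} [MetricSpace M] [CompactSpace M] [SimplyConnectedSpace M] {n : ℕ}
    (loc : LocEuc M n) {G : Type*} [Group G] (f : M → M → G) (r : ℝ) (hr : 0 < r)
    (h : ∀ x y z, dist x y < r → dist y z < r → dist x z < r → f x y * f y z = f x z) :
    ∃ (l : M → G) (r' : ℝ), 0 < r' ∧ ∀ x y, dist x y < r' → f x y = l x * (l y)⁻¹ := by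
  have := locallyPath_of_locEuc loc
  exact h1g (ε := r) h hr

end Vale.Agent.P216.H269D
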